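import Crest.Agent.R50.H41Ten

/-!
Row 50: ten symmetric open sets without orthogonal pairs do not cover the unit sphere of `ℝ⁴`,
given the Lyusternik–Shnirelman covering theorem for the three-sphere.
-/

set_option autoImplicit false

namespace Crest.Agent.R50

theorem no_ten_colours
    (LS : ∀ P : Fin 3 → Set (EuclideanSpace ℝ (Fin 4)), (∀ i, IsOpen (P i)) →
      (∀ i x, x ∈ P i → -x ∉ P i) → ∃ x, ‖x‖ = 1 ∧ ∀ i, x ∉ P i ∧ -x ∉ P i)
    (U : Fin 10 → Set (EuclideanSpace ℝ (Fin 4))) (hopen : ∀ i, IsOpen (U i))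
    (hsym : ∀ i x, x ∈ U i → -x ∈ U i)
    (hno : ∀ i x y, x ∈ U i → y ∈ U i → inner ℝ x y ≠ 0) :
    ∃ x, ‖x‖ = 1 ∧ ∀ i, x ∉ U i :=
  H41.no_ten_colours {x | ‖x‖ = 1} LS U hopen hsym hno

end Crest.Agent.R50
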