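import Crest.Agent.R50.H41Tools

/-!
Row 50: faces, transitions, the strata lemma, the layer lemma and the transition lemma.
-/

set_option autoImplicit false

namespace Crest.Agent.R50.H41

open Set

variable {E : Type*} [NormedAddCommGroup E] [InnerProductSpace ℝ E]
variable {ι : Type*} [Fintype ι] [DecidableEq ι]

/-- points having all the colours of `s` -/
def All (U : ι → Set E) (s : Finset ι) : Set E := {x | ∀ i ∈ s, x ∈ U i}

/-- points having some colour of `s` -/
def Any (U : ι → Set E) (s : Finset ι) : Set E := {x | ∃ i ∈ s, x ∈ U i}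

/-- `s` is a face of the nerve -/
def Face (U : ι → Set E) (s : Finset ι) : Prop := ∃ x, x ∈ All U s

/-- transition across `s` from `u` to `v` -/
def Trans (U : ι → Set E) (s : Finset ι) (u v : ι) : Prop :=
  u ≠ v ∧ u ∉ s ∧ v ∉ s ∧ Link (All U s) (U u) (U v)

/-- covered by two balanced sets -/
def I1 (X : Set E) : Prop := ∃ A B : Set E, Bal A ∧ Bal B ∧ X ⊆ A ∪ B

/-- covered by three balanced sets -/
def I2 (X : Set E) : Prop := ∃ A Y : Set E, Bal A ∧ I1 Y ∧ X ⊆ A ∪ Y

omit [InnerProductSpace ℝ E] in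
theorem I1.mono {X Y : Set E} (hY : I1 Y) (h : X ⊆ Y) : I1 X := by
  obtain ⟨A, B, h1, h2, h3⟩ := hY
  exact ⟨A, B, h1, h2, h.trans h3⟩

omit [Fintype ι] [DecidableEq ι] in
theorem os_all {U : ι → Set E} (hU : ∀ i, Colour (U i)) (s : Finset ι) : OS (All U s) := by
  constructor
  · have : All U s = ⋂ i ∈ s, U i := by ext x; simp [All]
    rw [this]
    exact isOpen_biInter_finset fun i _ => (hU i).os.isOpen
  · intro x hx i hi
    exact (hU i).os.sym x (hx i hi)

omit [Fintype ι] [DecidableEq ι] in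
theorem os_any {U : ι → Set E} (hU : ∀ i, Colour (U i)) (s : Finset ι) : OS (Any U s) := by
  constructor
  · have : Any U s = ⋃ i ∈ s, U i := by ext x; simp [Any]
    rw [this]
    exact isOpen_biUnion fun i _ => (hU i).os.isOpen
  · rintro x ⟨i, hi, hx⟩
    exact ⟨i, hi, (hU i).os.sym x hx⟩

omit [Fintype ι] [DecidableEq ι] in
theorem colour_all {U : ι → Set E} (hU : ∀ i, Colour (U i)) {s : Finset ι} (hs : s.Nonempty) :
    Colour (All U s) := by
  obtain ⟨i, hi⟩ := hs
  exact (hU i).subset (os_all hU s) fun x hx => hx i hi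

omit [Fintype ι] [DecidableEq ι] in
theorem Face.bal {U : ι → Set E} (hU : ∀ i, Colour (U i)) {s : Finset ι} (hs : Face U s) :
    Bal (Any U s) := by
  obtain ⟨p, hp⟩ := hs
  refine bal_pole p ?_
  rintro y ⟨i, hi, hy⟩
  exact (hU i).north y hy p (hp i hi)

omit [Fintype ι] [DecidableEq ι] [NormedAddCommGroup E] [InnerProductSpace ℝ E] in
theorem Face.mono {U : ι → Set E} {s t : Finset ι} (hs : Face U s) (h : t ⊆ s) : Face U t := by
  obtain ⟨p, hp⟩ := hs
  exact ⟨p, fun i hi => hp i (h hi)⟩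

omit [Fintype ι] [InnerProductSpace ℝ E] in
theorem Trans.face_left {U : ι → Set E} {s : Finset ι} {u v : ι} (h : Trans U s u v) :
    Face U (insert u s) := by
  obtain ⟨-, -, -, K, -, hK, ⟨p, hp, hpu⟩, -⟩ := h
  refine ⟨p, fun i hi => ?_⟩
  rcases Finset.mem_insert.1 hi with rfl | hi
  · exact hpu
  · exact hK hp i hi

omit [Fintype ι] [DecidableEq ι] [InnerProductSpace ℝ E] in
theorem Trans.symm {U : ι → Set E} {s : Finset ι} {u v : ι} (h : Trans U s u v) :
    Trans U s v u :=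
  ⟨h.1.symm, h.2.2.1, h.2.1, h.2.2.2.symm⟩

omit [Fintype ι] [InnerProductSpace ℝ E] in
theorem Trans.face_right {U : ι → Set E} {s : Finset ι} {u v : ι} (h : Trans U s u v) :
    Face U (insert v s) := h.symm.face_left

/-- strata lemma: the points with exactly `k ≥ 1` colours form a balanced set -/
theorem bal_exact {U : ι → Set E} (hU : ∀ i, Colour (U i)) {k : ℕ} (hk : 1 ≤ k) :
    Bal {x | ∃ s : Finset ι, s.card = k ∧ ∀ i, x ∈ U i ↔ i ∈ s} := by
  choose φ hc he hn hp using fun i => (hU i).exists_phi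
  let W : {s : Finset ι // s.card = k} → Set E := fun s =>
    All U s.1 ∩ {x | ∀ i ∈ s.1, ∀ j ∉ s.1, φ j x < φ i x}
  have hos : ∀ s, OS (W s) := by
    intro s
    refine (os_all hU s.1).inter ⟨?_, ?_⟩
    · have : {x | ∀ i ∈ s.1, ∀ j ∉ s.1, φ j x < φ i x} =
          ⋂ i ∈ s.1, ⋂ j ∈ s.1ᶜ, {x | φ j x < φ i x} := by
        ext x; simp
      rw [this]
      exact isOpen_biInter_finset fun i _ => isOpen_biInter_finset fun j _ =>
        isOpen_lt (hc j) (hc i)
    · intro x hx i hi j hj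
      rw [he, he]
      exact hx i hi j hj
  have := bal_iUnion W hos ?_ ?_
  · refine this.mono ?_
    rintro x ⟨s, hs, hx⟩
    refine mem_iUnion.2 ⟨⟨s, hs⟩, fun i hi => (hx i).2 hi, fun i hi j hj => ?_⟩
    have h1 : 0 < φ i x := (hp i x).2 ((hx i).2 hi)
    have h2 : ¬ 0 < φ j x := fun h => hj ((hx j).1 ((hp j x).1 h))
    linarith [not_lt.1 h2]
  · rintro ⟨s, hs⟩ ⟨t, ht⟩ x hx hx'
    by_contra hne
    have hne' : s ≠ t := fun h => hne (Subtype.ext h)
    have h1 : ¬ s ⊆ t := fun h => hne' (Finset.eq_of_subset_of_card_le h (by omega))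
    have h2 : ¬ t ⊆ s := fun h => hne' (Finset.eq_of_subset_of_card_le h (by omega)).symm
    obtain ⟨i, hi, hi'⟩ := Finset.not_subset.1 h1
    obtain ⟨j, hj, hj'⟩ := Finset.not_subset.1 h2
    have a1 := hx.2 i hi j hj'
    have a2 := hx'.2 j hj i hi'
    linarith
  · rintro ⟨s, hs⟩
    have : s.Nonempty := Finset.card_pos.1 (by omega)
    exact (colour_all hU this).bal.mono inter_subset_left

omit [DecidableEq ι] [NormedAddCommGroup E] [InnerProductSpace ℝ E] in
theorem exists_colours (U : ι → Set E) (x : E) :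
    ∃ s : Finset ι, ∀ i, x ∈ U i ↔ i ∈ s := by
  classical
  exact ⟨Finset.univ.filter fun i => x ∈ U i, fun i => by simp⟩

/-- layer lemma -/
theorem bal_layer {U : ι → Set E} (hU : ∀ i, Colour (U i)) {n : ℕ} (hn : 1 ≤ n)
    (hmax : ∀ s : Finset ι, Face U s → s.card ≤ n + 1)
    (G : Finset ι → Finset ι)
    (hG1 : ∀ T : Finset ι, T.card = n + 1 → Face U T → Face U (G T))
    (hG2 : ∀ (e : Finset ι) (u : ι), e.card = n → u ∉ e → Face U (insert u e) →
      ∃ i ∈ e, i ∈ G (insert u e))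
    (hG3 : ∀ (e : Finset ι) (u v : ι), e.card = n → Trans U e u v →
      G (insert u e) = G (insert v e)) :
    Bal {x | ∃ e : Finset ι, e.card = n ∧ x ∈ All U e} := by
  let Z : Finset ι → Set E := fun g =>
    ⋃ e : Finset ι, ⋃ u : ι, ⋃ (_ : e.card = n ∧ u ∉ e ∧ g = G (insert u e)),
      Meets (All U e) (U u)
  let Z' : Finset ι → Set E := fun e =>
    ⋃ (_ : e.card = n), Avoids (All U e) (Any U eᶜ)
  have memZ : ∀ g x, x ∈ Z g ↔ ∃ e : Finset ι, ∃ u : ι, e.card = n ∧ u ∉ e ∧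
      g = G (insert u e) ∧ x ∈ Meets (All U e) (U u) := by
    intro g x
    simp only [Z, mem_iUnion]
    constructor
    · rintro ⟨e, u, ⟨h1, h2, h3⟩, h4⟩; exact ⟨e, u, h1, h2, h3, h4⟩
    · rintro ⟨e, u, h1, h2, h3, h4⟩; exact ⟨e, u, ⟨h1, h2, h3⟩, h4⟩
  have memZ' : ∀ e x, x ∈ Z' e ↔ e.card = n ∧ x ∈ Avoids (All U e) (Any U eᶜ) := by
    intro e x
    simp only [Z', mem_iUnion]
    constructor
    · rintro ⟨h1, h2⟩; exact ⟨h1, h2⟩
    · rintro ⟨h1, h2⟩; exact ⟨h1, h2⟩
  have osZ : ∀ g, OS (Z g) := by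
    intro g
    constructor
    · exact isOpen_iUnion fun e => isOpen_iUnion fun u => isOpen_iUnion fun _ =>
        (os_meets (os_all hU e) (hU u).os.sym).isOpen
    · intro x hx
      obtain ⟨e, u, h1, h2, h3, h4⟩ := (memZ g x).1 hx
      exact (memZ g _).2 ⟨e, u, h1, h2, h3, (os_meets (os_all hU e) (hU u).os.sym).sym x h4⟩
  have osZ' : ∀ e, OS (Z' e) := by
    intro e
    constructor
    · exact isOpen_iUnion fun _ => (os_avoids (os_all hU e) (os_any hU _).sym).isOpen
    · intro x hx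
      obtain ⟨h1, h2⟩ := (memZ' e x).1 hx
      exact (memZ' e _).2 ⟨h1, (os_avoids (os_all hU e) (os_any hU _).sym).sym x h2⟩
  -- same edge
  have lemA : ∀ (e : Finset ι) (u u' : ι) (x : E), e.card = n → u ∉ e → u' ∉ e →
      x ∈ Meets (All U e) (U u) → x ∈ Meets (All U e) (U u') →
      G (insert u e) = G (insert u' e) := by
    rintro e u u' x he hu hu' ⟨hx, y, hy, hyu⟩ ⟨-, y', hy', hyu'⟩
    by_cases huu : u = u'
    · rw [huu]
    · exact hG3 e u u' he ⟨huu, hu, hu', connectedComponentIn (All U e) x,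
        isPreconnected_connectedComponentIn, connectedComponentIn_subset _ _,
        ⟨y, hy, hyu⟩, y', hy', hyu'⟩
  -- different edges
  have lemB : ∀ (e e' : Finset ι) (x : E), e.card = n → e'.card = n → e ≠ e' →
      x ∈ All U e → x ∈ All U e' → ∃ w w', w ∉ e ∧ w' ∉ e' ∧ insert w e = insert w' e' ∧
        x ∈ U w ∧ x ∈ U w' := by
    intro e e' x he he' hne hx hx'
    have h1 : ¬ e ⊆ e' := fun h => hne (Finset.eq_of_subset_of_card_le h (by omega))
    have h2 : ¬ e' ⊆ e := fun h => hne (Finset.eq_of_subset_of_card_le h (by omega)).symm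
    obtain ⟨w', hw', hw''⟩ := Finset.not_subset.1 h1
    obtain ⟨w, hw, hw2⟩ := Finset.not_subset.1 h2
    have hface : Face U (e ∪ e') := ⟨x, fun i hi => by
      rcases Finset.mem_union.1 hi with hi | hi
      · exact hx i hi
      · exact hx' i hi⟩
    have hc := hmax _ hface
    have e1 : insert w e = e ∪ e' := by
      refine Finset.eq_of_subset_of_card_le ?_ ?_
      · intro i hi
        rcases Finset.mem_insert.1 hi with rfl | hi
        · exact Finset.mem_union_right _ hw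
        · exact Finset.mem_union_left _ hi
      · rw [Finset.card_insert_of_notMem hw2]; omega
    have e2 : insert w' e' = e ∪ e' := by
      refine Finset.eq_of_subset_of_card_le ?_ ?_
      · intro i hi
        rcases Finset.mem_insert.1 hi with rfl | hi
        · exact Finset.mem_union_left _ hw'
        · exact Finset.mem_union_right _ hi
      · rw [Finset.card_insert_of_notMem hw'']; omega
    exact ⟨w, w', hw2, hw'', e1.trans e2.symm, hx' w hw, hx w' hw'⟩
  have selfMeets : ∀ (e : Finset ι) (w : ι) (x : E), x ∈ All U e → x ∈ U w →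
      x ∈ Meets (All U e) (U w) := fun e w x hx hw => ⟨hx, x, mem_connectedComponentIn hx, hw⟩
  have dZZ : ∀ g g' x, x ∈ Z g → x ∈ Z g' → g = g' := by
    intro g g' x hx hx'
    obtain ⟨e, u, h1, h2, rfl, h4⟩ := (memZ g x).1 hx
    obtain ⟨e', u', h1', h2', rfl, h4'⟩ := (memZ g' x).1 hx'
    by_cases hee : e = e'
    · subst hee
      exact lemA e u u' x h1 h2 h2' h4 h4'
    · obtain ⟨w, w', a1, a2, a3, a4, a5⟩ := lemB e e' x h1 h1' hee h4.1 h4'.1
      rw [lemA e u w x h1 h2 a1 h4 (selfMeets e w x h4.1 a4), a3,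
        lemA e' w' u' x h1' a2 h2' (selfMeets e' w' x h4'.1 a5) h4']
  have dZZ' : ∀ g e' x, x ∈ Z g → x ∉ Z' e' := by
    intro g e' x hx hx'
    obtain ⟨e, u, h1, h2, rfl, h4⟩ := (memZ g x).1 hx
    obtain ⟨h1', h4'⟩ := (memZ' e' x).1 hx'
    by_cases hee : e = e'
    · subst hee
      obtain ⟨-, y, hy, hyu⟩ := h4
      exact h4'.2 y hy ⟨u, Finset.mem_compl.2 h2, hyu⟩
    · obtain ⟨w, w', a1, a2, a3, a4, a5⟩ := lemB e e' x h1 h1' hee h4.1 h4'.1
      exact not_mem_of_avoids h4' ⟨w', Finset.mem_compl.2 a2, a5⟩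
  have dZ'Z' : ∀ e e' x, x ∈ Z' e → x ∈ Z' e' → e = e' := by
    intro e e' x hx hx'
    obtain ⟨h1, h4⟩ := (memZ' e x).1 hx
    obtain ⟨h1', h4'⟩ := (memZ' e' x).1 hx'
    by_contra hee
    obtain ⟨w, w', a1, a2, a3, a4, a5⟩ := lemB e e' x h1 h1' hee h4.1 h4'.1
    exact not_mem_of_avoids h4' ⟨w', Finset.mem_compl.2 a2, a5⟩
  have bZ : ∀ g, Bal (Z g) := by
    intro g
    rcases (Z g).eq_empty_or_nonempty with h | ⟨x0, hx0⟩
    · rw [h]; exact colour_empty.bal
    have faceOf : ∀ (e : Finset ι) (u : ι) (x : E), x ∈ Meets (All U e) (U u) →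
        Face U (insert u e) := by
      rintro e u x ⟨-, y, hy, hyu⟩
      refine ⟨y, fun i hi => ?_⟩
      rcases Finset.mem_insert.1 hi with rfl | hi
      · exact hyu
      · exact connectedComponentIn_subset _ _ hy i hi
    have hg : Face U g := by
      obtain ⟨e, u, h1, h2, rfl, h4⟩ := (memZ g x0).1 hx0
      exact hG1 _ (by rw [Finset.card_insert_of_notMem h2, h1]) (faceOf e u x0 h4)
    refine (hg.bal hU).mono ?_
    intro x hx
    obtain ⟨e, u, h1, h2, rfl, h4⟩ := (memZ g x).1 hx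
    obtain ⟨i, hi, hi'⟩ := hG2 e u h1 h2 (faceOf e u x h4)
    exact ⟨i, hi', h4.1 i hi⟩
  have bZ' : ∀ e, Bal (Z' e) := by
    intro e
    by_cases he : e.card = n
    · have : e.Nonempty := Finset.card_pos.1 (by omega)
      exact (colour_all hU this).bal.mono fun x hx => ((memZ' e x).1 hx).2.1
    · refine colour_empty.bal.mono fun x hx => (he ((memZ' e x).1 hx).1).elim
  have osU : ∀ (X : Finset ι → Set E), (∀ g, OS (X g)) → OS (⋃ g, X g) := by
    intro X hX
    refine ⟨isOpen_iUnion fun g => (hX g).isOpen, fun x hx => ?_⟩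
    obtain ⟨g, hg⟩ := mem_iUnion.1 hx
    exact mem_iUnion.2 ⟨g, (hX g).sym x hg⟩
  have := bal_union_disj (osU Z osZ) (osU Z' osZ')
    (by intro x hx hx'
        obtain ⟨g, hg⟩ := mem_iUnion.1 hx
        obtain ⟨e, he⟩ := mem_iUnion.1 hx'
        exact dZZ' g e x hg he)
    (bal_iUnion Z osZ dZZ bZ) (bal_iUnion Z' osZ' dZ'Z' bZ')
  refine this.mono ?_
  rintro x ⟨e, he, hx⟩
  rcases meets_or_avoids (Any U eᶜ) hx with h | h
  · obtain ⟨-, y, hy, u, hu, hyu⟩ := h
    exact Or.inl (mem_iUnion.2 ⟨_, (memZ _ x).2 ⟨e, u, he, Finset.mem_compl.1 hu, rfl,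
      hx, y, hy, hyu⟩⟩)
  · exact Or.inr (mem_iUnion.2 ⟨e, (memZ' e x).2 ⟨he, h⟩⟩)

omit [Fintype ι] [DecidableEq ι] in
/-- transition lemma -/
theorem Trans.exists_bal {U : ι → Set E} (hU : ∀ i, Colour (U i)) {s : Finset ι} {u v : ι}
    (h : Trans U s u v) : ∃ X : Set E, Bal X ∧ ∀ x i, x ∈ U i →
      x ∈ X ∨ (x ∈ U u ∧ x ∈ U v) ∨ ∃ k, k ∉ s ∧ k ≠ u ∧ k ≠ v ∧ x ∈ U k := by
  obtain ⟨huv, hu, hv, K, hK, hKs, ⟨p, hpK, hp⟩, q, hqK, hq⟩ := h
  obtain ⟨φ, φc, φe, φn, φp⟩ := (hU u).exists_phi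
  obtain ⟨ψ, ψc, ψe, ψn, ψp⟩ := (hU v).exists_phi
  have os1 : OS {x | ψ x < φ x} := ⟨isOpen_lt ψc φc, fun x hx => by
    simp only [mem_ofPred_eq, φe, ψe] at hx ⊢; exact hx⟩
  have os2 : OS {x | φ x < ψ x} := ⟨isOpen_lt φc ψc, fun x hx => by
    simp only [mem_ofPred_eq, φe, ψe] at hx ⊢; exact hx⟩
  have := bal_glue ((os_any hU s).union os1) ((os_any hU s).union os2) p q
    (by rintro y (⟨i, hi, hy⟩ | hy)
        · exact (hU i).north y hy p (hKs hpK i hi)
        · exact (hU u).north y ((φp y).1 (lt_of_le_of_lt (ψn y) hy)) p hp)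
    (by rintro y (⟨i, hi, hy⟩ | hy)
        · exact (hU i).north y hy q (hKs hqK i hi)
        · exact (hU v).north y ((ψp y).1 (lt_of_le_of_lt (φn y) hy)) q hq)
    (by intro y hy hy'
        have : y ∈ Any U s := by
          rcases hy with hy | hy
          · exact hy
          · rcases hy' with hy' | hy'
            · exact hy'
            · simp only [mem_ofPred_eq] at hy hy'
              linarith
        obtain ⟨i, hi, hy⟩ := this
        exact inner_mul_pos_of_preconnected hK hpK hqK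
          (fun z hz => (hU i).north y hy z (hKs hz i hi)))
  refine ⟨_, this, fun x i hx => ?_⟩
  by_cases hi : i ∈ s
  · exact Or.inl (Or.inl (Or.inl ⟨i, hi, hx⟩))
  rcases lt_trichotomy (φ x) (ψ x) with h | h | h
  · exact Or.inl (Or.inr (Or.inr h))
  · by_cases h0 : 0 < φ x
    · exact Or.inr (Or.inl ⟨(φp x).1 h0, (ψp x).1 (h ▸ h0)⟩)
    · refine Or.inr (Or.inr ⟨i, hi, ?_, ?_, hx⟩)
      · rintro rfl; exact h0 ((φp x).2 hx)
      · rintro rfl; exact h0 (h ▸ (ψp x).2 hx)
  · exact Or.inl (Or.inl (Or.inr h))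

end Crest.Agent.R50.H41
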