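import Crest.Agent.R50.H41Layer

/-!
Row 50: six colours whose union is not covered by two balanced sets: every pair of colours lies
in exactly two triple faces.
-/

set_option autoImplicit false

namespace Crest.Agent.R50.H41

open Set

variable {E : Type*} [NormedAddCommGroup E] [InnerProductSpace ℝ E]

/-- every pair of `B` lies in exactly two triple faces inside `B` -/
def BetaOn {ι : Type*} [DecidableEq ι] (U : ι → Set E) (B : Finset ι) : Prop :=
  ∀ a ∈ B, ∀ b ∈ B, a ≠ b → ∃ c ∈ B, ∃ d ∈ B, c ≠ d ∧ c ≠ a ∧ c ≠ b ∧ d ≠ a ∧ d ≠ b ∧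
    ∀ x ∈ B, x ≠ a → x ≠ b → (Face U {a, b, x} ↔ x = c ∨ x = d)

theorem bal_any_of_card_le_two {ι : Type*} [DecidableEq ι] {U : ι → Set E}
    (hU : ∀ i, Colour (U i)) {s : Finset ι} (hs : s.card ≤ 2) : Bal (Any U s) := by
  rcases Nat.lt_or_ge s.card 2 with h | h
  · rcases s.eq_empty_or_nonempty with rfl | ⟨a, ha⟩
    · exact colour_empty.bal.mono (by rintro x ⟨i, hi, -⟩; simp at hi)
    · refine (hU a).bal.mono ?_
      rintro x ⟨i, hi, hx⟩
      rwa [Finset.card_le_one.1 (by omega) a ha i hi]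
  · obtain ⟨a, b, -, rfl⟩ := Finset.card_eq_two.1 (le_antisymm hs h)
    refine (bal_two (hU a) (hU b)).mono ?_
    rintro x ⟨i, hi, hx⟩
    simp only [Finset.mem_insert, Finset.mem_singleton] at hi
    rcases hi with rfl | rfl
    · exact Or.inl hx
    · exact Or.inr hx

section transfer

variable {ι κ : Type*} [DecidableEq ι] [DecidableEq κ]

omit [NormedAddCommGroup E] [InnerProductSpace ℝ E] in
theorem face_comp (U : ι → Set E) (σ : κ → ι) (a b c : κ) :
    Face (U ∘ σ) {a, b, c} ↔ Face U {σ a, σ b, σ c} := by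
  simp [Face, All]

omit [InnerProductSpace ℝ E] in
theorem trans_comp (U : ι → Set E) {σ : κ → ι} (a b c d : κ)
    (h : Trans U {σ a, σ b} (σ c) (σ d)) : Trans (U ∘ σ) {a, b} c d := by
  obtain ⟨h1, h2, h3, h4⟩ := h
  simp only [Finset.mem_insert, Finset.mem_singleton, not_or] at h2 h3
  refine ⟨fun h => h1 (congrArg σ h), ?_, ?_, ?_⟩
  · simp only [Finset.mem_insert, Finset.mem_singleton, not_or]
    exact ⟨fun h => h2.1 (congrArg σ h), fun h => h2.2 (congrArg σ h)⟩
  · simp only [Finset.mem_insert, Finset.mem_singleton, not_or]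
    exact ⟨fun h => h3.1 (congrArg σ h), fun h => h3.2 (congrArg σ h)⟩
  · have : All (U ∘ σ) {a, b} = All U {σ a, σ b} := by ext x; simp [All]
    rw [this]; exact h4

omit [NormedAddCommGroup E] [InnerProductSpace ℝ E] in
theorem beta_transfer [Fintype κ] (U : ι → Set E) {σ : κ → ι} (hσ : Function.Injective σ)
    (B : Finset ι) (hB : ∀ i, i ∈ B ↔ ∃ k, σ k = i) (h : BetaOn (U ∘ σ) Finset.univ) :
    BetaOn U B := by
  intro a ha b hb hab
  obtain ⟨a, rfl⟩ := (hB a).1 ha
  obtain ⟨b, rfl⟩ := (hB b).1 hb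
  obtain ⟨c, -, d, -, h1, h2, h3, h4, h5, h6⟩ :=
    h a (Finset.mem_univ _) b (Finset.mem_univ _) (fun h => hab (congrArg σ h))
  refine ⟨σ c, (hB _).2 ⟨c, rfl⟩, σ d, (hB _).2 ⟨d, rfl⟩, hσ.ne h1, hσ.ne h2, hσ.ne h3,
    hσ.ne h4, hσ.ne h5, fun x hx hxa hxb => ?_⟩
  obtain ⟨x, rfl⟩ := (hB x).1 hx
  rw [← face_comp, h6 x (Finset.mem_univ _) (fun h => hxa (congrArg σ h))
    (fun h => hxb (congrArg σ h)), hσ.eq_iff, hσ.eq_iff]

omit [DecidableEq ι] [DecidableEq κ] [NormedAddCommGroup E] [InnerProductSpace ℝ E] in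
theorem any_comp [Fintype κ] (U : ι → Set E) {σ : κ → ι}
    (B : Finset ι) (hB : ∀ i, i ∈ B ↔ ∃ k, σ k = i) : Any (U ∘ σ) Finset.univ = Any U B := by
  ext x
  constructor
  · rintro ⟨k, -, hk⟩
    exact ⟨σ k, (hB _).2 ⟨k, rfl⟩, hk⟩
  · rintro ⟨i, hi, hx⟩
    obtain ⟨k, rfl⟩ := (hB i).1 hi
    exact ⟨k, Finset.mem_univ _, hx⟩

end transfer

section six

variable {U : Fin 6 → Set E}

theorem six_card_le (hU : ∀ i, Colour (U i)) (h : ¬ I1 (Any U Finset.univ))
    (s : Finset (Fin 6)) (hs : Face U s) : s.card ≤ 2 + 1 := by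
  by_contra hc
  have h2 : sᶜ.card ≤ 2 := by
    rw [Finset.card_compl, Fintype.card_fin]; omega
  refine h ⟨_, _, hs.bal hU, bal_any_of_card_le_two hU h2, ?_⟩
  rintro x ⟨i, -, hx⟩
  by_cases hi : i ∈ s
  · exact Or.inl ⟨i, hi, hx⟩
  · exact Or.inr ⟨i, Finset.mem_compl.2 hi, hx⟩

theorem six_nocomp (hU : ∀ i, Colour (U i)) (h : ¬ I1 (Any U Finset.univ))
    {s t : Finset (Fin 6)} (hs : Face U s) (hst : ∀ i, i ∈ s ∨ i ∈ t) : ¬ Face U t := by
  intro ht
  refine h ⟨_, _, hs.bal hU, ht.bal hU, ?_⟩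
  rintro x ⟨i, -, hx⟩
  rcases hst i with hi | hi
  · exact Or.inl ⟨i, hi, hx⟩
  · exact Or.inr ⟨i, hi, hx⟩

/-- six pairwise distinct elements -/
def D6 (x y u v s t : Fin 6) : Prop :=
  x ≠ y ∧ x ≠ u ∧ x ≠ v ∧ x ≠ s ∧ x ≠ t ∧ y ≠ u ∧ y ≠ v ∧ y ≠ s ∧ y ≠ t ∧
    u ≠ v ∧ u ≠ s ∧ u ≠ t ∧ v ≠ s ∧ v ≠ t ∧ s ≠ t

instance (x y u v s t : Fin 6) : Decidable (D6 x y u v s t) := by
  unfold D6; infer_instance

theorem D6.rot {x y u v s t : Fin 6} (h : D6 x y u v s t) : D6 u v s t x y := by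
  obtain ⟨h1, h2, h3, h4, h5, h6, h7, h8, h9, h10, h11, h12, h13, h14, h15⟩ := h
  exact ⟨h10, h11, h12, h2.symm, h6.symm, h13, h14, h3.symm, h7.symm, h15, h4.symm, h8.symm,
    h5.symm, h9.symm, h1⟩

theorem D6.cover {x y u v s t : Fin 6} (h : D6 x y u v s t) (k : Fin 6) :
    k = x ∨ k = y ∨ k = u ∨ k = v ∨ k = s ∨ k = t := by
  obtain ⟨h1, h2, h3, h4, h5, h6, h7, h8, h9, h10, h11, h12, h13, h14, h15⟩ := h
  have : ({x, y, u, v, s, t} : Finset (Fin 6)) = Finset.univ := by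
    apply Finset.eq_univ_of_card
    rw [Finset.card_insert_of_notMem (by simp [*]), Finset.card_insert_of_notMem (by simp [*]),
      Finset.card_insert_of_notMem (by simp [*]), Finset.card_insert_of_notMem (by simp [*]),
      Finset.card_insert_of_notMem (by simp [*])]
    simp
  have hk : k ∈ ({x, y, u, v, s, t} : Finset (Fin 6)) := this ▸ Finset.mem_univ k
  simpa using hk

theorem exists_D6 : ∀ x y u v : Fin 6, x ≠ y → u ≠ v → u ≠ x → u ≠ y → v ≠ x → v ≠ y →
    ∃ s t, D6 x y u v s t := by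
  decide +kernel

theorem six_propagate (hU : ∀ i, Colour (U i)) (h : ¬ I1 (Any U Finset.univ))
    {x y u v s t : Fin 6} (hD : D6 x y u v s t) (hT : Trans U {x, y} u v) :
    Trans U {u, v} s t := by
  obtain ⟨X, hX, hcov⟩ := hT.exists_bal hU
  have hnb : ¬ Bal (All U {u, v} ∪ U s ∪ U t) := by
    intro hb
    refine h ⟨_, _, hX, hb, ?_⟩
    rintro z ⟨i, -, hz⟩
    rcases hcov z i hz with h1 | h1 | ⟨k, k1, k2, k3, k4⟩
    · exact Or.inl h1
    · exact Or.inr (Or.inl (Or.inl (by simpa [All] using h1)))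
    · simp only [Finset.mem_insert, Finset.mem_singleton, not_or] at k1
      rcases hD.cover k with rfl | rfl | rfl | rfl | rfl | rfl
      · exact (k1.1 rfl).elim
      · exact (k1.2 rfl).elim
      · exact (k2 rfl).elim
      · exact (k3 rfl).elim
      · exact Or.inr (Or.inl (Or.inr k4))
      · exact Or.inr (Or.inr k4)
  have := link_of_not_bal (colour_all hU (by simp)) (hU s) (hU t) hnb
  obtain ⟨h1, h2, h3, h4, h5, h6, h7, h8, h9, h10, h11, h12, h13, h14, h15⟩ := hD
  exact ⟨h15, by simp [h11.symm, h13.symm], by simp [h12.symm, h14.symm], this⟩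

/-- none of the six triples attached to an oriented matching lies in the list `N` -/
def SixOut (N : List (Finset (Fin 6))) (x y u v s t : Fin 6) : Prop :=
  insert u {x, y} ∉ N ∧ insert v {x, y} ∉ N ∧ insert s {u, v} ∉ N ∧ insert t {u, v} ∉ N ∧
    insert x {s, t} ∉ N ∧ insert y {s, t} ∉ N

instance (N : List (Finset (Fin 6))) (x y u v s t : Fin 6) : Decidable (SixOut N x y u v s t) := by
  unfold SixOut; infer_instance

theorem six_out (hU : ∀ i, Colour (U i)) (h : ¬ I1 (Any U Finset.univ))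
    (N : List (Finset (Fin 6))) (hN : ∀ T ∈ N, ¬ Face U T)
    {x y u v s t : Fin 6} (hD : D6 x y u v s t) (hT : Trans U {x, y} u v) :
    SixOut N x y u v s t := by
  have h2 := six_propagate hU h hD hT
  have h3 := six_propagate hU h hD.rot h2
  exact ⟨fun hh => hN _ hh hT.face_left, fun hh => hN _ hh hT.face_right,
    fun hh => hN _ hh h2.face_left, fun hh => hN _ hh h2.face_right,
    fun hh => hN _ hh h3.face_left, fun hh => hN _ hh h3.face_right⟩

theorem six_no_G (hU : ∀ i, Colour (U i)) (h : ¬ I1 (Any U Finset.univ))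
    (G : Finset (Fin 6) → Finset (Fin 6))
    (hG1 : ∀ T : Finset (Fin 6), Face U T → Face U (G T))
    (hG2 : ∀ x y u : Fin 6, x ≠ y → u ≠ x → u ≠ y →
      x ∈ G (insert u {x, y}) ∨ y ∈ G (insert u {x, y}))
    (hG3 : ∀ x y u v s t : Fin 6, D6 x y u v s t → Trans U {x, y} u v →
      G (insert u {x, y}) = G (insert v {x, y})) : False := by
  have b2 := bal_layer hU (n := 2) (by norm_num) (six_card_le hU h) G (fun T _ hT => hG1 T hT)
    (by intro e u he hu _
        obtain ⟨x, y, hxy, rfl⟩ := Finset.card_eq_two.1 he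
        simp only [Finset.mem_insert, Finset.mem_singleton, not_or] at hu
        rcases hG2 x y u hxy hu.1 hu.2 with h1 | h1
        · exact ⟨x, by simp, h1⟩
        · exact ⟨y, by simp, h1⟩)
    (by intro e u v he hT
        obtain ⟨x, y, hxy, rfl⟩ := Finset.card_eq_two.1 he
        have h1 := hT.1
        have h2 := hT.2.1
        have h3 := hT.2.2.1
        simp only [Finset.mem_insert, Finset.mem_singleton, not_or] at h2 h3
        obtain ⟨s, t, hD⟩ := exists_D6 x y u v hxy h1 h2.1 h2.2 h3.1 h3.2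
        exact hG3 x y u v s t hD hT)
  refine h ⟨_, _, bal_exact hU (k := 1) le_rfl, b2, ?_⟩
  rintro x ⟨i, -, hx⟩
  obtain ⟨s, hs⟩ := exists_colours U x
  have h1 : 1 ≤ s.card := Finset.card_pos.2 ⟨i, (hs i).1 hx⟩
  rcases Nat.lt_or_ge s.card 2 with h2 | h2
  · exact Or.inl ⟨s, by omega, hs⟩
  · obtain ⟨e, he, he2⟩ := Finset.exists_subset_card_eq h2
    exact Or.inr ⟨e, he2, fun j hj => (hs j).2 (he hj)⟩

/-- labelling used when two oriented matchings are active -/
def GC (T : Finset (Fin 6)) : Finset (Fin 6) :=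
  if T = {0, 1, 3} ∨ T = {0, 2, 4} then {0, 1, 2}
  else if T = {2, 3, 4} ∨ T = {0, 3, 5} then {2, 3, 5}
  else if T = {0, 4, 5} ∨ T = {1, 3, 4} then {1, 4, 5} else T

/-- non-faces when two oriented matchings are active -/
def NC : List (Finset (Fin 6)) :=
  [{3, 4, 5}, {2, 4, 5}, {0, 1, 5}, {0, 1, 4}, {1, 2, 3}, {0, 2, 3}, {1, 3, 5}, {0, 2, 5},
    {1, 2, 4}, {1, 2, 5}]

theorem GC_2 : ∀ x y u : Fin 6, x ≠ y → u ≠ x → u ≠ y →
    x ∈ GC (insert u {x, y}) ∨ y ∈ GC (insert u {x, y}) := by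
  decide +kernel

theorem GC_3 : ∀ x y u v s t : Fin 6, D6 x y u v s t → SixOut NC x y u v s t →
    GC (insert u {x, y}) = GC (insert v {x, y}) := by
  decide +kernel

/-- the ten faces of the six-vertex projective plane -/
def FP : List (Finset (Fin 6)) :=
  [{0, 1, 2}, {0, 1, 3}, {2, 3, 4}, {2, 3, 5}, {0, 4, 5}, {1, 4, 5}, {0, 2, 4}, {1, 3, 4},
    {0, 3, 5}, {1, 2, 5}]

theorem FP_compl : ∀ a b x : Fin 6, a ≠ b → x ≠ a → x ≠ b → ({a, b, x} : Finset (Fin 6)) ∉ FP →
    ∃ T ∈ FP, ∀ i, i ∈ T ∨ i ∈ ({a, b, x} : Finset (Fin 6)) := by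
  decide +kernel

set_option synthInstance.maxSize 2048 in
theorem FP_beta : ∀ a b : Fin 6, a ≠ b → ∃ c d : Fin 6, c ≠ d ∧ c ≠ a ∧ c ≠ b ∧ d ≠ a ∧ d ≠ b ∧
    ∀ x : Fin 6, x ≠ a → x ≠ b → (({a, b, x} : Finset (Fin 6)) ∈ FP ↔ x = c ∨ x = d) := by
  decide +kernel

theorem six_stepC (hU : ∀ i, Colour (U i)) (h : ¬ I1 (Any U Finset.univ))
    (h0 : Trans U {0, 1} 2 3) (h1 : Trans U {0, 2} 1 4) : BetaOn U Finset.univ := by
  have h02 := six_propagate hU h (by decide : D6 0 1 2 3 4 5) h0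
  have h03 := six_propagate hU h (by decide : D6 2 3 4 5 0 1) h02
  have h12 := six_propagate hU h (by decide : D6 0 2 1 4 3 5) h1
  have h13 := six_propagate hU h (by decide : D6 1 4 3 5 0 2) h12
  have f012 : Face U {0, 1, 2} := h0.face_left.mono (by decide)
  have f013 : Face U {0, 1, 3} := h0.face_right.mono (by decide)
  have f234 : Face U {2, 3, 4} := h02.face_left.mono (by decide)
  have f235 : Face U {2, 3, 5} := h02.face_right.mono (by decide)
  have f045 : Face U {0, 4, 5} := h03.face_left.mono (by decide)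
  have f145 : Face U {1, 4, 5} := h03.face_right.mono (by decide)
  have f024 : Face U {0, 2, 4} := h1.face_right.mono (by decide)
  have f134 : Face U {1, 3, 4} := h12.face_left.mono (by decide)
  have f035 : Face U {0, 3, 5} := h13.face_left.mono (by decide)
  have f125 : Face U {1, 2, 5} := by
    by_contra hn
    have hN : ∀ T ∈ NC, ¬ Face U T := by
      intro T hT
      simp only [NC, List.mem_cons, List.not_mem_nil, or_false] at hT
      rcases hT with rfl | rfl | rfl | rfl | rfl | rfl | rfl | rfl | rfl | rfl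
      · exact six_nocomp hU h f012 (by decide)
      · exact six_nocomp hU h f013 (by decide)
      · exact six_nocomp hU h f234 (by decide)
      · exact six_nocomp hU h f235 (by decide)
      · exact six_nocomp hU h f045 (by decide)
      · exact six_nocomp hU h f145 (by decide)
      · exact six_nocomp hU h f024 (by decide)
      · exact six_nocomp hU h f134 (by decide)
      · exact six_nocomp hU h f035 (by decide)
      · exact hn
    refine six_no_G hU h GC ?_ GC_2
      (fun x y u v s t hD hT => GC_3 x y u v s t hD (six_out hU h NC hN hD hT))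
    intro T hT
    unfold GC
    split_ifs <;> assumption
  have hFP : ∀ T ∈ FP, Face U T := by
    intro T hT
    simp only [FP, List.mem_cons, List.not_mem_nil, or_false] at hT
    rcases hT with rfl | rfl | rfl | rfl | rfl | rfl | rfl | rfl | rfl | rfl <;> assumption
  intro a _ b _ hab
  obtain ⟨c, d, a1, a2, a3, a4, a5, a6⟩ := FP_beta a b hab
  refine ⟨c, Finset.mem_univ _, d, Finset.mem_univ _, a1, a2, a3, a4, a5, fun x _ hxa hxb => ?_⟩
  rw [← a6 x hxa hxb]
  refine ⟨fun hf => ?_, hFP _⟩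
  by_contra hn
  obtain ⟨T, hT, hT'⟩ := FP_compl a b x hab hxa hxb hn
  exact six_nocomp hU h (hFP T hT) hT' hf

/-- labelling used when one oriented matching is active -/
def GB (T : Finset (Fin 6)) : Finset (Fin 6) :=
  if T = {0, 1, 3} then {0, 1, 2}
  else if T = {2, 3, 5} then {2, 3, 4}
  else if T = {1, 4, 5} then {0, 4, 5} else T

/-- non-faces when one oriented matching is active -/
def NB : List (Finset (Fin 6)) :=
  [{3, 4, 5}, {2, 4, 5}, {0, 1, 5}, {0, 1, 4}, {1, 2, 3}, {0, 2, 3}]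

/-- partner in the matching `01, 23, 45` -/
def pt : Fin 6 → Fin 6 := ![1, 0, 3, 2, 5, 4]

/-- block in the matching `01, 23, 45` -/
def blk : Fin 6 → Fin 3 := ![0, 0, 1, 1, 2, 2]

theorem GB_2 : ∀ x y u : Fin 6, x ≠ y → u ≠ x → u ≠ y →
    x ∈ GB (insert u {x, y}) ∨ y ∈ GB (insert u {x, y}) := by
  decide +kernel

theorem GB_3 : ∀ x y u v s t : Fin 6, D6 x y u v s t → SixOut NB x y u v s t →
    GB (insert u {x, y}) = GB (insert v {x, y}) ∨
    (blk y = blk x + 1 ∧ u = pt x ∧ blk v = blk x + 2) ∨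
    (blk y = blk x + 1 ∧ v = pt x ∧ blk u = blk x + 2) ∨
    (blk x = blk y + 1 ∧ u = pt y ∧ blk v = blk y + 2) ∨
    (blk x = blk y + 1 ∧ v = pt y ∧ blk u = blk y + 2) := by
  decide +kernel

theorem blk_cases : ∀ a c : Fin 6, blk c = blk a + 1 →
    (({a, pt a} : Finset (Fin 6)) = {0, 1} ∧ ((c = 2 ∧ pt c = 3) ∨ (c = 3 ∧ pt c = 2))) ∨
    (({a, pt a} : Finset (Fin 6)) = {2, 3} ∧ ((c = 4 ∧ pt c = 5) ∨ (c = 5 ∧ pt c = 4))) ∨
    (({a, pt a} : Finset (Fin 6)) = {4, 5} ∧ ((c = 0 ∧ pt c = 1) ∨ (c = 1 ∧ pt c = 0))) := by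
  decide +kernel

theorem blk_bij : ∀ a c e : Fin 6, blk c = blk a + 1 → blk e = blk a + 2 →
    Function.Bijective (![a, pt a, c, pt c, e, pt e] : Fin 6 → Fin 6) := by
  decide +kernel

theorem six_stepB (hU : ∀ i, Colour (U i)) (h : ¬ I1 (Any U Finset.univ))
    (h0 : Trans U {0, 1} 2 3) : BetaOn U Finset.univ := by
  by_contra hβ
  have h02 := six_propagate hU h (by decide : D6 0 1 2 3 4 5) h0
  have h03 := six_propagate hU h (by decide : D6 2 3 4 5 0 1) h02
  have f012 : Face U {0, 1, 2} := h0.face_left.mono (by decide)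
  have f013 : Face U {0, 1, 3} := h0.face_right.mono (by decide)
  have f234 : Face U {2, 3, 4} := h02.face_left.mono (by decide)
  have f235 : Face U {2, 3, 5} := h02.face_right.mono (by decide)
  have f045 : Face U {0, 4, 5} := h03.face_left.mono (by decide)
  have f145 : Face U {1, 4, 5} := h03.face_right.mono (by decide)
  have hN : ∀ T ∈ NB, ¬ Face U T := by
    intro T hT
    simp only [NB, List.mem_cons, List.not_mem_nil, or_false] at hT
    rcases hT with rfl | rfl | rfl | rfl | rfl | rfl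
    · exact six_nocomp hU h f012 (by decide)
    · exact six_nocomp hU h f013 (by decide)
    · exact six_nocomp hU h f234 (by decide)
    · exact six_nocomp hU h f235 (by decide)
    · exact six_nocomp hU h f045 (by decide)
    · exact six_nocomp hU h f145 (by decide)
  have key : ∀ a c e : Fin 6, blk c = blk a + 1 → blk e = blk a + 2 →
      ¬ Trans U {a, c} (pt a) e := by
    intro a c e hc he hT
    have hM : Trans U {a, pt a} c (pt c) := by
      rcases blk_cases a c hc with ⟨e1, ⟨e2, e3⟩ | ⟨e2, e3⟩⟩ | ⟨e1, ⟨e2, e3⟩ | ⟨e2, e3⟩⟩ |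
        ⟨e1, ⟨e2, e3⟩ | ⟨e2, e3⟩⟩ <;> rw [e1, e3, e2]
      · exact h0
      · exact h0.symm
      · exact h02
      · exact h02.symm
      · exact h03
      · exact h03.symm
    have hb := blk_bij a c e hc he
    set σ : Fin 6 → Fin 6 := ![a, pt a, c, pt c, e, pt e] with hσ
    have hB : ∀ i, i ∈ (Finset.univ : Finset (Fin 6)) ↔ ∃ k, σ k = i :=
      fun i => ⟨fun _ => hb.2 i, fun _ => Finset.mem_univ _⟩
    refine hβ (beta_transfer U hb.1 _ hB (six_stepC (fun i => hU (σ i)) ?_ ?_ ?_))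
    · rw [any_comp U _ hB]; exact h
    · exact trans_comp U 0 1 2 3 hM
    · exact trans_comp U 0 2 1 4 hT
  refine six_no_G hU h GB ?_ GB_2 ?_
  · intro T hT
    unfold GB
    split_ifs <;> assumption
  · intro x y u v s t hD hT
    rcases GB_3 x y u v s t hD (six_out hU h NB hN hD hT) with h1 | ⟨h1, rfl, h3⟩ |
      ⟨h1, rfl, h3⟩ | ⟨h1, rfl, h3⟩ | ⟨h1, rfl, h3⟩
    · exact h1
    · exact (key x y v h1 h3 hT).elim
    · exact (key x y u h1 h3 hT.symm).elim
    · exact (key y x v h1 h3 (Finset.pair_comm x y ▸ hT)).elim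
    · exact (key y x u h1 h3 (Finset.pair_comm x y ▸ hT.symm)).elim

theorem D6_bij : ∀ x y u v s t : Fin 6, D6 x y u v s t →
    Function.Bijective (![x, y, u, v, s, t] : Fin 6 → Fin 6) := by
  intro x y u v s t hD
  have hs : Function.Surjective (![x, y, u, v, s, t] : Fin 6 → Fin 6) := by
    intro k
    rcases hD.cover k with rfl | rfl | rfl | rfl | rfl | rfl
    · exact ⟨0, rfl⟩
    · exact ⟨1, rfl⟩
    · exact ⟨2, rfl⟩
    · exact ⟨3, rfl⟩
    · exact ⟨4, rfl⟩
    · exact ⟨5, rfl⟩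
  exact Finite.surjective_iff_bijective.1 hs

theorem six_beta (hU : ∀ i, Colour (U i)) (h : ¬ I1 (Any U Finset.univ)) :
    BetaOn U Finset.univ := by
  by_contra hβ
  refine six_no_G hU h id (fun T hT => hT) (fun x y u _ _ _ => Or.inl (by simp)) ?_
  intro x y u v s t hD hT
  exfalso
  have hb := D6_bij x y u v s t hD
  set σ : Fin 6 → Fin 6 := ![x, y, u, v, s, t] with hσ
  have hB : ∀ i, i ∈ (Finset.univ : Finset (Fin 6)) ↔ ∃ k, σ k = i :=
    fun i => ⟨fun _ => hb.2 i, fun _ => Finset.mem_univ _⟩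
  refine hβ (beta_transfer U hb.1 _ hB (six_stepB (fun i => hU (σ i)) ?_ ?_))
  · rw [any_comp U _ hB]; exact h
  · exact trans_comp U 0 1 2 3 hT

end six

/-- the six-colour lemma -/
theorem beta_of_not_I1 {ι : Type*} [DecidableEq ι] {U : ι → Set E} (hU : ∀ i, Colour (U i))
    (B : Finset ι) (hB : B.card = 6) (h : ¬ I1 (Any U B)) : BetaOn U B := by
  let e : B ≃ Fin 6 := Finset.equivFinOfCardEq hB
  let σ : Fin 6 → ι := fun k => (e.symm k : ι)
  have hσ : Function.Injective σ := fun a b hab => e.symm.injective (Subtype.ext hab)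
  have hB' : ∀ i, i ∈ B ↔ ∃ k, σ k = i := by
    intro i
    constructor
    · intro hi; exact ⟨e ⟨i, hi⟩, by simp [σ]⟩
    · rintro ⟨k, rfl⟩; exact (e.symm k).2
  refine beta_transfer U hσ B hB' (six_beta (fun i => hU (σ i)) ?_)
  rw [any_comp U _ hB']; exact h

end Crest.Agent.R50.H41
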