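import Crest.Agent.R50.H41Six

/-!
Row 50: the union of ten colours is covered by three balanced sets.
-/

set_option autoImplicit false

namespace Crest.Agent.R50.H41

open Set

variable {E : Type*} [NormedAddCommGroup E] [InnerProductSpace ℝ E]

theorem pentagon_contra {ι : Type*} [DecidableEq ι] (K : Finset ι) (hK : K.card = 5)
    (R : ι → ι → Prop) (hsymm : ∀ x y, R x y → R y x)
    (hdeg : ∀ x ∈ K, ∃ c ∈ K, ∃ d ∈ K, c ≠ d ∧ c ≠ x ∧ d ≠ x ∧
      ∀ y ∈ K, y ≠ x → (R x y ↔ y = c ∨ y = d))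
    (T : Finset ι) (hT : T ⊆ K)
    (hS : ∀ x ∈ K, ∀ y ∈ K, x ≠ y → R x y → ((T.erase x).erase y).card = 1) : False := by
  have hle : ∀ x y : ι, T.card ≤ ((T.erase x).erase y).card + 2 := by
    intro x y
    have h1 := Finset.pred_card_le_card_erase (s := T) (a := x)
    have h2 := Finset.pred_card_le_card_erase (s := T.erase x) (a := y)
    omega
  obtain ⟨x0, hx0⟩ : K.Nonempty := Finset.card_pos.1 (by omega)
  obtain ⟨c0, hc0, d0, -, -, h1, -, h2⟩ := hdeg x0 hx0
  have e0 := hS x0 hx0 c0 hc0 h1.symm ((h2 c0 hc0 h1).2 (Or.inl rfl))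
  have hT3 : T.card ≤ 3 := by have := hle x0 c0; omega
  obtain ⟨z, hz⟩ : T.Nonempty := by
    obtain ⟨z, hz⟩ := Finset.card_pos.1 (show 0 < ((T.erase x0).erase c0).card by omega)
    exact ⟨z, Finset.mem_of_mem_erase (Finset.mem_of_mem_erase hz)⟩
  obtain ⟨p, hp, q, hq, hpq, hpz, hqz, hz2⟩ := hdeg z (hT hz)
  have hT2 : 2 ≤ T.card := by
    have e1 := hS z (hT hz) p hp hpz.symm ((hz2 p hp hpz).2 (Or.inl rfl))
    have h3 := Finset.card_erase_le (s := T.erase z) (a := p)
    have h4 := Finset.card_erase_of_mem hz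
    have h5 : 0 < T.card := Finset.card_pos.2 ⟨z, hz⟩
    omega
  -- every vertex outside `T` has both neighbours in `T`, and `T` has two elements
  have hout : ∀ w ∈ K, w ∉ T → ∀ y ∈ K, y ≠ w → R w y → y ∈ T ∧ T.card = 2 := by
    intro w hw hwT y hy hyw hR
    have e1 := hS w hw y hy hyw.symm hR
    rw [Finset.erase_eq_of_notMem hwT] at e1
    have hyT : y ∈ T := by
      by_contra hyT
      rw [Finset.erase_eq_of_notMem hyT] at e1
      omega
    rw [Finset.card_erase_of_mem hyT] at e1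
    exact ⟨hyT, by omega⟩
  have hadj : ∀ w ∈ K, w ∉ T → (w = p ∨ w = q) ∧ T.card = 2 := by
    intro w hw hwT
    obtain ⟨c, hc, d, hd, hcd, hcw, hdw, hw2⟩ := hdeg w hw
    obtain ⟨hcT, hcard⟩ := hout w hw hwT c hc hcw ((hw2 c hc hcw).2 (Or.inl rfl))
    obtain ⟨hdT, -⟩ := hout w hw hwT d hd hdw ((hw2 d hd hdw).2 (Or.inr rfl))
    have hTeq : ({c, d} : Finset ι) = T := by
      refine Finset.eq_of_subset_of_card_le ?_ (by rw [Finset.card_pair hcd, hcard])
      intro i hi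
      simp only [Finset.mem_insert, Finset.mem_singleton] at hi
      rcases hi with rfl | rfl <;> assumption
    have hzw : z ≠ w := fun h => hwT (h ▸ hz)
    have hz' : z = c ∨ z = d := by
      have : z ∈ ({c, d} : Finset ι) := hTeq ▸ hz
      simpa using this
    have hR : R z w := hsymm _ _ ((hw2 z (hT hz) hzw).2 hz')
    exact ⟨(hz2 w hw hzw.symm).1 hR, hcard⟩
  have hcard : (K \ T).card = 5 - T.card := by
    rw [Finset.card_sdiff_of_subset hT, hK]
  obtain ⟨w, hw⟩ : (K \ T).Nonempty := Finset.card_pos.1 (by omega)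
  have hT2' := (hadj w (Finset.mem_sdiff.1 hw).1 (Finset.mem_sdiff.1 hw).2).2
  have hsub : K \ T ⊆ {p, q} := by
    intro w hw
    have := (hadj w (Finset.mem_sdiff.1 hw).1 (Finset.mem_sdiff.1 hw).2).1
    simpa using this
  have := Finset.card_le_card hsub
  rw [Finset.card_pair hpq] at this
  omega

theorem five_I1 {U : Fin 10 → Set E} (hU : ∀ i, Colour (U i)) (B : Finset (Fin 10))
    (hB : B.card ≤ 5) : I1 (Any U B) := by
  by_contra h
  obtain ⟨B', hBB', hB'⟩ := Finset.exists_superset_card_eq (s := B) (n := 6) (by omega)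
    (by simp)
  let U' : Fin 10 → Set E := fun i => if i ∈ B then U i else ∅
  have hU' : ∀ i, Colour (U' i) := by
    intro i
    simp only [U']
    split_ifs
    · exact hU i
    · exact colour_empty
  have hβ := beta_of_not_I1 hU' B' hB' (fun h' => h (h'.mono (by
    rintro x ⟨i, hi, hx⟩
    exact ⟨i, hBB' hi, by simpa [U', hi] using hx⟩)))
  obtain ⟨a, ha, haB⟩ : ∃ a ∈ B', a ∉ B := by
    by_contra hc
    push Not at hc
    have := Finset.card_le_card (show B' ⊆ B from hc)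
    omega
  obtain ⟨b, hb, hba⟩ := Finset.exists_mem_ne (s := B') (by omega) a
  obtain ⟨c, hc, d, -, -, h1, h2, -, -, h3⟩ := hβ a ha b hb hba.symm
  obtain ⟨p, hp⟩ := (h3 c hc h1 h2).2 (Or.inl rfl)
  have := hp a (by simp)
  simp [U', haB] at this

theorem ten_I2 {U : Fin 10 → Set E} (hU : ∀ i, Colour (U i)) : I2 (Any U Finset.univ) := by
  by_contra h
  have key : ∀ s : Finset (Fin 10), Face U s → ¬ I1 (Any U sᶜ) := by
    intro s hs hI
    refine h ⟨_, _, hs.bal hU, hI, ?_⟩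
    rintro x ⟨i, -, hx⟩
    by_cases hi : i ∈ s
    · exact Or.inl ⟨i, hi, hx⟩
    · exact Or.inr ⟨i, Finset.mem_compl.2 hi, hx⟩
  have hmax : ∀ s : Finset (Fin 10), Face U s → s.card ≤ 3 + 1 := by
    intro s hs
    by_contra hc
    refine key s hs (five_I1 hU _ ?_)
    rw [Finset.card_compl, Fintype.card_fin]; omega
  obtain ⟨e, d, v, he, hT⟩ : ∃ (e : Finset (Fin 10)) (d v : Fin 10), e.card = 3 ∧
      Trans U e d v := by
    by_contra hc
    push Not at hc
    have b3 := bal_layer hU (n := 3) (by norm_num) hmax id (fun T _ hT => hT)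
      (by intro e u he _ _
          obtain ⟨i, hi⟩ : e.Nonempty := Finset.card_pos.1 (by omega)
          exact ⟨i, hi, Finset.mem_insert_of_mem hi⟩)
      (fun e u v he hT => (hc e u v he hT).elim)
    refine h ⟨_, _, b3, ⟨_, _, bal_exact hU (k := 1) le_rfl, bal_exact hU (k := 2) (by norm_num),
      subset_rfl⟩, ?_⟩
    rintro x ⟨i, -, hx⟩
    obtain ⟨s, hs⟩ := exists_colours U x
    have h1 : 1 ≤ s.card := Finset.card_pos.2 ⟨i, (hs i).1 hx⟩
    rcases Nat.lt_or_ge s.card 3 with h2 | h2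
    · rcases Nat.lt_or_ge s.card 2 with h3 | h3
      · exact Or.inr (Or.inl ⟨s, by omega, hs⟩)
      · exact Or.inr (Or.inr ⟨s, by omega, hs⟩)
    · obtain ⟨e, he, he2⟩ := Finset.exists_subset_card_eq h2
      exact Or.inl ⟨e, he2, fun j hj => (hs j).2 (he hj)⟩
  have hdv : d ≠ v := hT.1
  have hde : d ∉ e := hT.2.1
  have hve : v ∉ e := hT.2.2.1
  have hfe : Face U e := hT.face_left.mono (Finset.subset_insert _ _)
  obtain ⟨X, hX, hcov⟩ := hT.exists_bal hU
  set K : Finset (Fin 10) := (insert d (insert v e))ᶜ with hK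
  have memK : ∀ k, k ∈ K ↔ k ≠ d ∧ k ≠ v ∧ k ∉ e := by
    intro k; simp [hK]
  have hKc : K.card = 5 := by
    rw [hK, Finset.card_compl, Fintype.card_fin, Finset.card_insert_of_notMem (by simp [hdv, hde]),
      Finset.card_insert_of_notMem hve, he]
  let U' : Fin 10 → Set E := Function.update U d (U d ∩ U v)
  have hU' : ∀ i, Colour (U' i) := by
    intro i
    by_cases hi : i = d
    · subst hi; simpa [U'] using (hU i).inter (hU v).os
    · simpa [U', Function.update_of_ne hi] using hU i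
  have hdK : d ∉ K := fun hh => ((memK d).1 hh).1 rfl
  have hβ := beta_of_not_I1 hU' (insert d K) (by rw [Finset.card_insert_of_notMem hdK, hKc])
    (fun hI => h ⟨_, _, hX, hI, by
      rintro x ⟨i, -, hx⟩
      rcases hcov x i hx with h1 | h1 | ⟨k, k1, k2, k3, k4⟩
      · exact Or.inl h1
      · exact Or.inr ⟨d, by simp, by simpa [U'] using h1⟩
      · exact Or.inr ⟨k, Finset.mem_insert_of_mem ((memK k).2 ⟨k2, k3, k1⟩),
          by simpa [U', Function.update_of_ne k2] using k4⟩⟩)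
  obtain ⟨a, b, c, hab, hac, hbc, rfl⟩ := Finset.card_eq_three.1 he
  classical
  refine pentagon_contra K hKc (fun x y => Face U {d, v, x, y}) ?_ ?_
    (K.filter fun z => Face U {a, b, z}) (Finset.filter_subset _ _) ?_
  · intro x y hxy
    refine hxy.mono ?_
    intro i; simp only [Finset.mem_insert, Finset.mem_singleton]; tauto
  · intro x hx
    have hxd : x ≠ d := ((memK x).1 hx).1
    obtain ⟨c1, hc1, c2, hc2, a1, a2, a3, a4, a5, a6⟩ :=
      hβ d (by simp) x (Finset.mem_insert_of_mem hx) hxd.symm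
    refine ⟨c1, (Finset.mem_insert.1 hc1).resolve_left a2, c2,
      (Finset.mem_insert.1 hc2).resolve_left a4, a1, a3, a5, fun y hy hyx => ?_⟩
    have hyd : y ≠ d := ((memK y).1 hy).1
    rw [← a6 y (Finset.mem_insert_of_mem hy) hyd hyx]
    simp [Face, All, U', Function.update_of_ne hxd, Function.update_of_ne hyd, and_assoc]
  · intro x hx y hy hxy hR
    obtain ⟨x1, x2, x3⟩ := (memK x).1 hx
    obtain ⟨y1, y2, y3⟩ := (memK y).1 hy
    simp only [Finset.mem_insert, Finset.mem_singleton, not_or] at x3 y3 hde hve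
    have hc6 : (({d, v, x, y} : Finset (Fin 10))ᶜ).card = 6 := by
      rw [Finset.card_compl, Fintype.card_fin,
        Finset.card_insert_of_notMem (by simp [hdv, x1.symm, y1.symm]),
        Finset.card_insert_of_notMem (by simp [x2.symm, y2.symm]), Finset.card_pair hxy]
    have memC : ∀ k, k ∈ (({d, v, x, y} : Finset (Fin 10))ᶜ) ↔
        k ≠ d ∧ k ≠ v ∧ k ≠ x ∧ k ≠ y := by
      intro k; simp
    obtain ⟨c1, hc1, c2, hc2, a1, a2, a3, a4, a5, a6⟩ := beta_of_not_I1 hU _ hc6 (key _ hR)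
      a ((memC a).2 ⟨Ne.symm hde.1, Ne.symm hve.1, Ne.symm x3.1, Ne.symm y3.1⟩)
      b ((memC b).2 ⟨Ne.symm hde.2.1, Ne.symm hve.2.1, Ne.symm x3.2.1, Ne.symm y3.2.1⟩) hab
    have hcC := (memC c).2 ⟨Ne.symm hde.2.2, Ne.symm hve.2.2, Ne.symm x3.2.2, Ne.symm y3.2.2⟩
    have main : ∀ c' : Fin 10, c' ∈ (({d, v, x, y} : Finset (Fin 10))ᶜ) → c' ≠ c → c' ≠ a →
        c' ≠ b → (∀ z ∈ (({d, v, x, y} : Finset (Fin 10))ᶜ), z ≠ a → z ≠ b →
          (Face U {a, b, z} ↔ z = c ∨ z = c')) →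
        (((K.filter fun z => Face U {a, b, z}).erase x).erase y).card = 1 := by
      intro c' h1 h2 h3 h4 h5
      rw [Finset.card_eq_one]
      refine ⟨c', ?_⟩
      ext z
      simp only [Finset.mem_erase, Finset.mem_filter, Finset.mem_singleton, memK,
        Finset.mem_insert, not_or]
      constructor
      · rintro ⟨z1, z2, ⟨z3, z4, z5, z6, z7⟩, z8⟩
        exact ((h5 z ((memC z).2 ⟨z3, z4, z2, z1⟩) z5 z6).1 z8).resolve_left z7
      · rintro rfl
        obtain ⟨b1, b2, b3, b4⟩ := (memC z).1 h1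
        exact ⟨b4, b3, ⟨b1, b2, h3, h4, h2⟩, (h5 z h1 h3 h4).2 (Or.inr rfl)⟩
    rcases (a6 c hcC hac.symm hbc.symm).1 hfe with rfl | rfl
    · exact main c2 hc2 a1.symm a4 a5 a6
    · exact main c1 hc1 a1 a2 a3 (fun z hz h1 h2 => by rw [a6 z hz h1 h2, or_comm])

/-- ten colours do not cover a set that is not covered by three antipode-free open sets and
their antipodes -/
theorem no_ten_colours (S : Set E)
    (LS : ∀ P : Fin 3 → Set E, (∀ i, IsOpen (P i)) → (∀ i x, x ∈ P i → -x ∉ P i) →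
      ∃ x ∈ S, ∀ i, x ∉ P i ∧ -x ∉ P i)
    (U : Fin 10 → Set E) (hopen : ∀ i, IsOpen (U i)) (hsym : ∀ i x, x ∈ U i → -x ∈ U i)
    (hno : ∀ i x y, x ∈ U i → y ∈ U i → inner ℝ x y ≠ 0) : ∃ x ∈ S, ∀ i, x ∉ U i := by
  have hU : ∀ i, Colour (U i) := fun i =>
    ⟨⟨hopen i, hsym i⟩, fun x hx y hy => hno i x y hx hy⟩
  obtain ⟨A, Y, ⟨P0, a1, a2, a3⟩, ⟨B, C, ⟨P1, b1, b2, b3⟩, ⟨P2, c1, c2, c3⟩, hY⟩, hcov⟩ :=
    ten_I2 hU
  obtain ⟨x, hxS, hx⟩ := LS ![P0, P1, P2] (by intro i; fin_cases i <;> assumption)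
    (by intro i; fin_cases i <;> assumption)
  refine ⟨x, hxS, fun i hi => ?_⟩
  rcases hcov ⟨i, Finset.mem_univ _, hi⟩ with h | h
  · exact (a3 x h).elim (hx 0).1 (hx 0).2
  · rcases hY h with h | h
    · exact (b3 x h).elim (hx 1).1 (hx 1).2
    · exact (c3 x h).elim (hx 2).1 (hx 2).2

end Crest.Agent.R50.H41
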