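import Mathlib

/-!
Row 50 (Borsuk in dimension nine): elementary tools about symmetric open sets in a real inner
product space that contain no orthogonal pair ("colours") and about "balanced" sets, i.e. sets
covered by `P ∪ -P` with `P` an open set disjoint from `-P`.
-/

set_option autoImplicit false

namespace Crest.Agent.R50.H41

open Set

variable {E : Type*} [NormedAddCommGroup E] [InnerProductSpace ℝ E]

/-- symmetric open sets -/
structure OS (X : Set E) : Prop where
  isOpen : IsOpen X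
  sym : ∀ x ∈ X, -x ∈ X

/-- a colour: a symmetric open set with no orthogonal pair -/
structure Colour (U : Set E) : Prop where
  os : OS U
  north : ∀ x ∈ U, ∀ y ∈ U, inner ℝ x y ≠ 0

/-- balanced sets -/
def Bal (X : Set E) : Prop :=
  ∃ P : Set E, IsOpen P ∧ (∀ x ∈ P, -x ∉ P) ∧ ∀ x ∈ X, x ∈ P ∨ -x ∈ P

omit [InnerProductSpace ℝ E] in
theorem OS.union {X Y : Set E} (hX : OS X) (hY : OS Y) : OS (X ∪ Y) :=
  ⟨hX.isOpen.union hY.isOpen, fun x hx => hx.elim (fun h => Or.inl (hX.sym x h))
    (fun h => Or.inr (hY.sym x h))⟩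

omit [InnerProductSpace ℝ E] in
theorem OS.inter {X Y : Set E} (hX : OS X) (hY : OS Y) : OS (X ∩ Y) :=
  ⟨hX.isOpen.inter hY.isOpen, fun x hx => ⟨hX.sym x hx.1, hY.sym x hx.2⟩⟩

omit [InnerProductSpace ℝ E] in
theorem OS.neg_mem_iff {X : Set E} (hX : OS X) {x : E} : -x ∈ X ↔ x ∈ X :=
  ⟨fun h => by simpa using hX.sym _ h, hX.sym x⟩

theorem Colour.subset {U V : Set E} (hU : Colour U) (hV : OS V) (h : V ⊆ U) : Colour V :=
  ⟨hV, fun x hx y hy => hU.north x (h hx) y (h hy)⟩

theorem Colour.inter {U V : Set E} (hU : Colour U) (hV : OS V) : Colour (U ∩ V) :=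
  hU.subset (hU.os.inter hV) inter_subset_left

theorem colour_empty : Colour (∅ : Set E) :=
  ⟨⟨isOpen_empty, fun _ h => h.elim⟩, fun _ h => h.elim⟩

omit [InnerProductSpace ℝ E] in
theorem Bal.mono {X Y : Set E} (hY : Bal Y) (h : X ⊆ Y) : Bal X := by
  obtain ⟨P, h1, h2, h3⟩ := hY
  exact ⟨P, h1, h2, fun x hx => h3 x (h hx)⟩

theorem isOpen_inner_pos (p : E) : IsOpen {y : E | 0 < inner ℝ y p} :=
  isOpen_lt continuous_const (by fun_prop)

theorem bal_pole {X : Set E} (p : E) (h : ∀ y ∈ X, inner ℝ y p ≠ 0) : Bal X := by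
  refine ⟨{y : E | 0 < inner ℝ y p}, isOpen_inner_pos p, ?_, ?_⟩
  · intro x hx hx'
    simp only [mem_ofPred_eq, inner_neg_left] at hx hx'
    linarith
  · intro x hx
    simp only [mem_ofPred_eq, inner_neg_left]
    rcases lt_or_gt_of_ne (h x hx) with h | h
    · right; linarith
    · left; exact h

omit [InnerProductSpace ℝ E] in
theorem bal_iUnion {ι : Type*} (X : ι → Set E) (hX : ∀ i, OS (X i))
    (hd : ∀ i j x, x ∈ X i → x ∈ X j → i = j) (hb : ∀ i, Bal (X i)) : Bal (⋃ i, X i) := by
  choose P hP1 hP2 hP3 using hb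
  refine ⟨⋃ i, P i ∩ X i, isOpen_iUnion fun i => (hP1 i).inter (hX i).isOpen, ?_, ?_⟩
  · intro x hx hx'
    obtain ⟨i, hi⟩ := mem_iUnion.1 hx
    obtain ⟨j, hj⟩ := mem_iUnion.1 hx'
    have : i = j := hd i j x hi.2 ((hX j).neg_mem_iff.1 hj.2)
    subst this
    exact hP2 i x hi.1 hj.1
  · intro x hx
    obtain ⟨i, hi⟩ := mem_iUnion.1 hx
    rcases hP3 i x hi with h | h
    · exact Or.inl (mem_iUnion.2 ⟨i, h, hi⟩)
    · exact Or.inr (mem_iUnion.2 ⟨i, h, (hX i).sym x hi⟩)

omit [InnerProductSpace ℝ E] in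
theorem bal_union_disj {X Y : Set E} (hX : OS X) (hY : OS Y) (hd : ∀ x, x ∈ X → x ∉ Y)
    (bX : Bal X) (bY : Bal Y) : Bal (X ∪ Y) := by
  have := bal_iUnion (fun b : Bool => if b then X else Y) (by rintro (_ | _) <;> simpa)
    (by rintro (_ | _) (_ | _) x h1 h2 <;> simp_all) (by rintro (_ | _) <;> simpa)
  refine this.mono ?_
  rintro x (h | h)
  · exact mem_iUnion.2 ⟨true, by simpa using h⟩
  · exact mem_iUnion.2 ⟨false, by simpa using h⟩

theorem bal_glue {A B : Set E} (hA : OS A) (hB : OS B) (p q : E)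
    (hp : ∀ y ∈ A, inner ℝ y p ≠ 0) (hq : ∀ y ∈ B, inner ℝ y q ≠ 0)
    (hpq : ∀ y ∈ A, y ∈ B → 0 < inner ℝ y p * inner ℝ y q) : Bal (A ∪ B) := by
  refine ⟨(A ∩ {y : E | 0 < inner ℝ y p}) ∪ (B ∩ {y : E | 0 < inner ℝ y q}),
    (hA.isOpen.inter (isOpen_inner_pos p)).union (hB.isOpen.inter (isOpen_inner_pos q)), ?_, ?_⟩
  · rintro x (⟨h1, h2⟩ | ⟨h1, h2⟩) (⟨h3, h4⟩ | ⟨h3, h4⟩) <;>
      simp only [mem_ofPred_eq, inner_neg_left] at h2 h4
    · linarith
    · have := hpq x h1 (hB.neg_mem_iff.1 h3)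
      nlinarith
    · have := hpq x (hA.neg_mem_iff.1 h3) h1
      nlinarith
    · linarith
  · rintro x (hx | hx)
    · rcases lt_or_gt_of_ne (hp x hx) with h | h
      · right; left
        exact ⟨hA.sym x hx, by simp only [mem_ofPred_eq, inner_neg_left]; linarith⟩
      · left; left; exact ⟨hx, h⟩
    · rcases lt_or_gt_of_ne (hq x hx) with h | h
      · right; right
        exact ⟨hB.sym x hx, by simp only [mem_ofPred_eq, inner_neg_left]; linarith⟩
      · left; right; exact ⟨hx, h⟩

theorem inner_mul_pos_of_preconnected {K : Set E} (hK : IsPreconnected K) {p q y : E}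
    (hp : p ∈ K) (hq : q ∈ K) (hy : ∀ z ∈ K, inner ℝ y z ≠ 0) :
    0 < inner ℝ y p * inner ℝ y q := by
  have hc : ContinuousOn (fun z : E => inner ℝ y z) K := by fun_prop
  by_contra hcon
  have h1 := hy p hp
  have h2 := hy q hq
  rcases lt_or_gt_of_ne h1 with h1 | h1 <;> rcases lt_or_gt_of_ne h2 with h2 | h2
  · exact hcon (mul_pos_of_neg_of_neg h1 h2)
  · obtain ⟨z, hz, hz0⟩ := hK.intermediate_value hp hq hc ⟨h1.le, h2.le⟩
    exact hy z hz hz0
  · obtain ⟨z, hz, hz0⟩ := hK.intermediate_value hq hp hc ⟨h2.le, h1.le⟩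
    exact hy z hz hz0
  · exact hcon (mul_pos h1 h2)

omit [InnerProductSpace ℝ E] in
theorem neg_mem_cc {W : Set E} (hW : OS W) {x y : E} (hy : y ∈ connectedComponentIn W x) :
    -y ∈ connectedComponentIn W (-x) := by
  have hx : x ∈ W := connectedComponentIn_nonempty_iff.1 ⟨y, hy⟩
  have h1 : IsPreconnected ((fun z : E => -z) '' connectedComponentIn W x) :=
    isPreconnected_connectedComponentIn.image _ (by fun_prop)
  have h2 : (fun z : E => -z) '' connectedComponentIn W x ⊆ connectedComponentIn W (-x) := by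
    refine h1.subset_connectedComponentIn ⟨x, mem_connectedComponentIn hx, rfl⟩ ?_
    rintro _ ⟨z, hz, rfl⟩
    exact hW.sym z (connectedComponentIn_subset _ _ hz)
  exact h2 ⟨y, hy, rfl⟩

/-- the union of the components of `W` that meet `G` -/
def Meets (W G : Set E) : Set E := {x | x ∈ W ∧ ∃ y ∈ connectedComponentIn W x, y ∈ G}

/-- the union of the components of `W` that do not meet `G` -/
def Avoids (W G : Set E) : Set E := {x | x ∈ W ∧ ∀ y ∈ connectedComponentIn W x, y ∉ G}

theorem os_meets {W G : Set E} (hW : OS W) (hG : ∀ x ∈ G, -x ∈ G) : OS (Meets W G) := by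
  constructor
  · rw [isOpen_iff_forall_mem_open]
    rintro x ⟨hx, y, hy, hyG⟩
    refine ⟨connectedComponentIn W x, ?_, hW.isOpen.connectedComponentIn,
      mem_connectedComponentIn hx⟩
    intro z hz
    refine ⟨connectedComponentIn_subset _ _ hz, y, ?_, hyG⟩
    rwa [← connectedComponentIn_eq hz]
  · rintro x ⟨hx, y, hy, hyG⟩
    exact ⟨hW.sym x hx, -y, neg_mem_cc hW hy, hG y hyG⟩

theorem os_avoids {W G : Set E} (hW : OS W) (hG : ∀ x ∈ G, -x ∈ G) : OS (Avoids W G) := by
  constructor
  · rw [isOpen_iff_forall_mem_open]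
    rintro x ⟨hx, hy⟩
    refine ⟨connectedComponentIn W x, ?_, hW.isOpen.connectedComponentIn,
      mem_connectedComponentIn hx⟩
    intro z hz
    refine ⟨connectedComponentIn_subset _ _ hz, fun y hy' => hy y ?_⟩
    rwa [connectedComponentIn_eq hz]
  · rintro x ⟨hx, hy⟩
    refine ⟨hW.sym x hx, fun y hy' hyG => hy (-y) ?_ (hG y hyG)⟩
    simpa using neg_mem_cc hW hy'

omit [InnerProductSpace ℝ E] in
theorem meets_or_avoids {W : Set E} (G : Set E) {x : E} (hx : x ∈ W) :
    x ∈ Meets W G ∨ x ∈ Avoids W G := by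
  by_cases h : ∃ y ∈ connectedComponentIn W x, y ∈ G
  · exact Or.inl ⟨hx, h⟩
  · push Not at h
    exact Or.inr ⟨hx, h⟩

omit [InnerProductSpace ℝ E] in
theorem not_avoids_of_meets {W G : Set E} {x : E} (h : x ∈ Meets W G) : x ∉ Avoids W G := by
  rintro ⟨-, h2⟩
  obtain ⟨-, y, hy, hyG⟩ := h
  exact h2 y hy hyG

omit [InnerProductSpace ℝ E] in
theorem not_mem_of_avoids {W G : Set E} {x : E} (h : x ∈ Avoids W G) : x ∉ G :=
  h.2 x (mem_connectedComponentIn h.1)

/-- `K`-link: a preconnected subset of `W` meets both `A` and `B` -/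
def Link (W A B : Set E) : Prop :=
  ∃ K : Set E, IsPreconnected K ∧ K ⊆ W ∧ (∃ p ∈ K, p ∈ A) ∧ ∃ q ∈ K, q ∈ B

omit [InnerProductSpace ℝ E] in
theorem Link.symm {W A B : Set E} (h : Link W A B) : Link W B A := by
  obtain ⟨K, h1, h2, h3, h4⟩ := h
  exact ⟨K, h1, h2, h4, h3⟩

omit [InnerProductSpace ℝ E] in
theorem not_mem_of_meets {W A B : Set E} (h : ¬ Link W A B) {x : E} (hx : x ∈ Meets W A) :
    x ∉ B := by
  intro hB
  obtain ⟨hx, y, hy, hyA⟩ := hx
  exact h ⟨connectedComponentIn W x, isPreconnected_connectedComponentIn,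
    connectedComponentIn_subset _ _, ⟨y, hy, hyA⟩, x, mem_connectedComponentIn hx, hB⟩

theorem Colour.bal {U : Set E} (hU : Colour U) : Bal U := by
  rcases U.eq_empty_or_nonempty with rfl | ⟨p, hp⟩
  · exact bal_pole 0 (fun _ h => h.elim)
  · exact bal_pole p (fun y hy => hU.north y hy p hp)

theorem bal_two {U V : Set E} (hU : Colour U) (hV : Colour V) : Bal (U ∪ V) := by
  by_cases h : ∃ p, p ∈ U ∧ p ∈ V
  · obtain ⟨p, h1, h2⟩ := h
    refine bal_pole p ?_
    rintro y (hy | hy)
    · exact hU.north y hy p h1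
    · exact hV.north y hy p h2
  · push Not at h
    exact bal_union_disj hU.os hV.os h hU.bal hV.bal

theorem bal_path3 {V1 V2 V3 : Set E} (h1 : Colour V1) (h2 : Colour V2) (h3 : Colour V3)
    (h13 : ∀ x, x ∈ V1 → x ∉ V3) : Bal (V1 ∪ V2 ∪ V3) := by
  by_cases hL : Link V2 V1 V3
  · obtain ⟨K, hK, hK2, ⟨p, hpK, hp⟩, q, hqK, hq⟩ := hL
    have := bal_glue (h1.os.union h2.os) (h2.os.union h3.os) p q
      (by rintro y (hy | hy)
          · exact h1.north y hy p hp
          · exact h2.north y hy p (hK2 hpK))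
      (by rintro y (hy | hy)
          · exact h2.north y hy q (hK2 hqK)
          · exact h3.north y hy q hq)
      (by intro y hy hy'
          have hy2 : y ∈ V2 := by
            rcases hy with hy | hy
            · rcases hy' with hy' | hy'
              · exact hy'
              · exact (h13 y hy hy').elim
            · exact hy
          exact inner_mul_pos_of_preconnected hK hpK hqK
            (fun z hz => h2.north y hy2 z (hK2 hz)))
    refine this.mono ?_
    rintro x ((h | h) | h)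
    · exact Or.inl (Or.inl h)
    · exact Or.inl (Or.inr h)
    · exact Or.inr (Or.inr h)
  · have hM := os_meets h2.os h1.os.sym
    have hA := os_avoids h2.os h1.os.sym
    have := bal_union_disj (h1.os.union hM) (hA.union h3.os)
      (by rintro x (hx | hx) (hx' | hx')
          · exact not_mem_of_avoids hx' hx
          · exact h13 x hx hx'
          · exact not_avoids_of_meets hx hx'
          · exact not_mem_of_meets hL hx hx')
      (bal_two h1 (h2.subset hM fun x hx => hx.1))
      (bal_two (h2.subset hA fun x hx => hx.1) h3)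
    refine this.mono ?_
    rintro x ((h | h) | h)
    · exact Or.inl (Or.inl h)
    · rcases meets_or_avoids V1 h with h | h
      · exact Or.inl (Or.inr h)
      · exact Or.inr (Or.inl h)
    · exact Or.inr (Or.inr h)

theorem bal_path4 {V1 V2 V3 V4 : Set E} (h1 : Colour V1) (h2 : Colour V2) (h3 : Colour V3)
    (h4 : Colour V4) (h13 : ∀ x, x ∈ V1 → x ∉ V3) (h14 : ∀ x, x ∈ V1 → x ∉ V4)
    (h24 : ∀ x, x ∈ V2 → x ∉ V4) : Bal (V1 ∪ V2 ∪ V3 ∪ V4) := by
  by_cases hL : Link (V2 ∪ V3) V1 V4
  · obtain ⟨K, hK, hK2, ⟨p, hpK, hp⟩, q, hqK, hq⟩ := hL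
    have hp2 : p ∈ V2 := (hK2 hpK).resolve_right (h13 p hp)
    have hq3 : q ∈ V3 := (hK2 hqK).resolve_left (fun h => h24 q h hq)
    have := bal_glue (h1.os.union h2.os) (h3.os.union h4.os) p q
      (by rintro y (hy | hy)
          · exact h1.north y hy p hp
          · exact h2.north y hy p hp2)
      (by rintro y (hy | hy)
          · exact h3.north y hy q hq3
          · exact h4.north y hy q hq)
      (by intro y hy hy'
          have hy2 : y ∈ V2 ∧ y ∈ V3 := by
            rcases hy with hy | hy <;> rcases hy' with hy' | hy'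
            · exact (h13 y hy hy').elim
            · exact (h14 y hy hy').elim
            · exact ⟨hy, hy'⟩
            · exact (h24 y hy hy').elim
          refine inner_mul_pos_of_preconnected hK hpK hqK (fun z hz => ?_)
          rcases hK2 hz with hz | hz
          · exact h2.north y hy2.1 z hz
          · exact h3.north y hy2.2 z hz)
    refine this.mono ?_
    rintro x (((h | h) | h) | h)
    · exact Or.inl (Or.inl h)
    · exact Or.inl (Or.inr h)
    · exact Or.inr (Or.inl h)
    · exact Or.inr (Or.inr h)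
  · have hM := os_meets (h2.os.union h3.os) h1.os.sym
    have hA := os_avoids (h2.os.union h3.os) h1.os.sym
    have b1 := bal_path3 h1 (h2.inter hM) (h3.inter hM) (fun x hx hx' => h13 x hx hx'.1)
    have b2 := bal_path3 (h2.inter hA) (h3.inter hA) h4 (fun x hx hx' => h24 x hx.1 hx')
    have := bal_union_disj ((h1.os.union (h2.os.inter hM)).union (h3.os.inter hM))
      (((h2.os.inter hA).union (h3.os.inter hA)).union h4.os)
      (by rintro x ((hx | hx) | hx) ((hx' | hx') | hx')
          · exact not_mem_of_avoids hx'.2 hx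
          · exact not_mem_of_avoids hx'.2 hx
          · exact h14 x hx hx'
          · exact not_avoids_of_meets hx.2 hx'.2
          · exact not_avoids_of_meets hx.2 hx'.2
          · exact not_mem_of_meets hL hx.2 hx'
          · exact not_avoids_of_meets hx.2 hx'.2
          · exact not_avoids_of_meets hx.2 hx'.2
          · exact not_mem_of_meets hL hx.2 hx') b1 b2
    refine this.mono ?_
    rintro x (((h | h) | h) | h)
    · exact Or.inl (Or.inl (Or.inl h))
    · rcases meets_or_avoids (W := V2 ∪ V3) V1 (Or.inl h) with h' | h'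
      · exact Or.inl (Or.inl (Or.inr ⟨h, h'⟩))
      · exact Or.inr (Or.inl (Or.inl ⟨h, h'⟩))
    · rcases meets_or_avoids (W := V2 ∪ V3) V1 (Or.inr h) with h' | h'
      · exact Or.inl (Or.inr ⟨h, h'⟩)
      · exact Or.inr (Or.inl (Or.inr ⟨h, h'⟩))
    · exact Or.inr (Or.inr h)

/-- three colours whose union is not balanced: a preconnected subset of the first meets the
other two. -/
theorem link_of_not_bal {V1 V2 V3 : Set E} (h1 : Colour V1) (h2 : Colour V2) (h3 : Colour V3)
    (h : ¬ Bal (V1 ∪ V2 ∪ V3)) : Link V1 V2 V3 := by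
  by_contra hL
  apply h
  have hM := os_meets h1.os h2.os.sym
  have hA := os_avoids h1.os h2.os.sym
  have := bal_path4 (h1.subset hM fun x hx => hx.1) h2 h3 (h1.subset hA fun x hx => hx.1)
    (fun x hx => not_mem_of_meets hL hx) (fun x hx => not_avoids_of_meets hx)
    (fun x hx hx' => not_mem_of_avoids hx' hx)
  refine this.mono ?_
  rintro x ((h | h) | h)
  · rcases meets_or_avoids V2 h with h' | h'
    · exact Or.inl (Or.inl (Or.inl h'))
    · exact Or.inr h'
  · exact Or.inl (Or.inl (Or.inr h))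
  · exact Or.inl (Or.inr h)

theorem Colour.exists_phi {U : Set E} (hU : Colour U) :
    ∃ φ : E → ℝ, Continuous φ ∧ (∀ x, φ (-x) = φ x) ∧ (∀ x, 0 ≤ φ x) ∧
      ∀ x, 0 < φ x ↔ x ∈ U := by
  have h0 : (0 : E) ∈ Uᶜ := fun h => hU.north 0 h 0 h (by simp)
  have hc : IsClosed Uᶜ := hU.os.isOpen.isClosed_compl
  have key : ∀ x, 0 < Metric.infDist x Uᶜ ↔ x ∈ U := fun x => by
    rw [← hc.notMem_iff_infDist_pos ⟨0, h0⟩]; simp
  refine ⟨fun x => Metric.infDist x Uᶜ + Metric.infDist (-x) Uᶜ, ?_, ?_, ?_, ?_⟩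
  · exact (Metric.continuous_infDist_pt _).add
      ((Metric.continuous_infDist_pt _).comp continuous_neg)
  · intro x; simp [add_comm]
  · intro x; exact add_nonneg Metric.infDist_nonneg Metric.infDist_nonneg
  · intro x
    constructor
    · intro h
      by_contra hx
      have h1 : ¬ 0 < Metric.infDist x Uᶜ := fun h => hx ((key x).1 h)
      have h2 : ¬ 0 < Metric.infDist (-x) Uᶜ := fun h => hx (hU.os.neg_mem_iff.1 ((key _).1 h))
      push Not at h1 h2
      linarith
    · intro hx
      exact add_pos_of_pos_of_nonneg ((key x).2 hx) Metric.infDist_nonneg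

end Crest.Agent.R50.H41
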