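import Mathlib
import Crest.Agent.R50.H41Colours
import Crest.Agent.Lib.BorsukUlam.Basic

/-!
Row 50: the rotation-matrix (Veronese) embedding of `ℝP³` in `ℝ⁹` and the reduction of the
Borsuk partition problem to colourings of the three-sphere without orthogonal pairs.
-/

set_option autoImplicit false

namespace Crest.Agent.R50

open scoped RealInnerProductSpace

/-- The entries of the rotation matrix of a quaternion. -/
noncomputable def vero (x : EuclideanSpace ℝ (Fin 4)) : EuclideanSpace ℝ (Fin 9) :=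
  !₂[x 0 ^ 2 + x 1 ^ 2 - x 2 ^ 2 - x 3 ^ 2, 2 * (x 1 * x 2 - x 0 * x 3), 2 * (x 1 * x 3 + x 0 * x 2),
    2 * (x 1 * x 2 + x 0 * x 3), x 0 ^ 2 - x 1 ^ 2 + x 2 ^ 2 - x 3 ^ 2, 2 * (x 2 * x 3 - x 0 * x 1),
    2 * (x 1 * x 3 - x 0 * x 2), 2 * (x 2 * x 3 + x 0 * x 1), x 0 ^ 2 - x 1 ^ 2 - x 2 ^ 2 + x 3 ^ 2]

lemma vero_neg (x : EuclideanSpace ℝ (Fin 4)) : vero (-x) = vero x := by
  simp [vero]

lemma dist_vero_sq (x y : EuclideanSpace ℝ (Fin 4)) (hx : ‖x‖ = 1) (hy : ‖y‖ = 1) :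
    dist (vero x) (vero y) ^ 2 = 8 - 8 * ⟪x, y⟫ ^ 2 := by
  have hx2 : x 0 ^ 2 + x 1 ^ 2 + x 2 ^ 2 + x 3 ^ 2 = 1 := by
    have := EuclideanSpace.real_norm_sq_eq x
    rw [hx, Fin.sum_univ_four] at this
    linarith
  have hy2 : y 0 ^ 2 + y 1 ^ 2 + y 2 ^ 2 + y 3 ^ 2 = 1 := by
    have := EuclideanSpace.real_norm_sq_eq y
    rw [hy, Fin.sum_univ_four] at this
    linarith
  have hin : ⟪x, y⟫ = x 0 * y 0 + x 1 * y 1 + x 2 * y 2 + x 3 * y 3 := by
    simp [PiLp.inner_apply, Fin.sum_univ_four]; ring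
  rw [EuclideanSpace.dist_sq_eq, hin]
  simp only [vero, Fin.sum_univ_succ, Real.dist_eq, sq_abs]
  simp
  have hx4 : (x 0 ^ 2 + x 1 ^ 2 + x 2 ^ 2 + x 3 ^ 2) ^ 2 = 1 := by rw [hx2]; norm_num
  have hy4 : (y 0 ^ 2 + y 1 ^ 2 + y 2 ^ 2 + y 3 ^ 2) ^ 2 = 1 := by rw [hy2]; norm_num
  have hxy : (x 0 ^ 2 + x 1 ^ 2 + x 2 ^ 2 + x 3 ^ 2) * (y 0 ^ 2 + y 1 ^ 2 + y 2 ^ 2 + y 3 ^ 2) = 1 := by
    rw [hx2, hy2]; norm_num
  linear_combination 3 * hx4 + 3 * hy4 + 2 * hxy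

theorem borsuk_nine :
    ∃ S : Set (EuclideanSpace ℝ (Fin 9)), Bornology.IsBounded S ∧ S.Nontrivial ∧
      ∀ c : EuclideanSpace ℝ (Fin 9) → Fin 10, ∃ i : Fin 10,
        Metric.diam S ≤ Metric.diam (S ∩ c ⁻¹' {i}) := by
  set S : Set (EuclideanSpace ℝ (Fin 9)) := vero '' {x | ‖x‖ = 1} with hS
  have hd : ∀ p ∈ S, ∀ q ∈ S, dist p q ≤ Real.sqrt 8 := by
    rintro _ ⟨x, hx, rfl⟩ _ ⟨y, hy, rfl⟩
    apply Real.le_sqrt_of_sq_le
    rw [dist_vero_sq x y hx hy]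
    nlinarith [sq_nonneg ⟪x, y⟫]
  have hb : Bornology.IsBounded S := Metric.isBounded_iff.2 ⟨_, fun p hp q hq => hd p hp q hq⟩
  have hdiam : Metric.diam S ≤ Real.sqrt 8 :=
    Metric.diam_le_of_forall_dist_le (Real.sqrt_nonneg _) hd
  refine ⟨S, hb, ?_, ?_⟩
  · refine ⟨vero (EuclideanSpace.single 0 1), ⟨_, by simp, rfl⟩,
      vero (EuclideanSpace.single 1 1), ⟨_, by simp, rfl⟩, ?_⟩
    intro h
    have h1 := dist_vero_sq (EuclideanSpace.single 0 1) (EuclideanSpace.single 1 1) (by simp)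
      (by simp)
    rw [h, EuclideanSpace.inner_single_left] at h1
    simp at h1
  · intro c
    by_contra hcon
    push Not at hcon
    -- a uniform lower bound for inner products inside each class
    have hδ : ∀ i : Fin 10, ∃ δ : ℝ, 0 < δ ∧ δ ≤ 1 ∧ ∀ x y : EuclideanSpace ℝ (Fin 4), ‖x‖ = 1 →
        ‖y‖ = 1 → c (vero x) = i → c (vero y) = i → δ ≤ |⟪x, y⟫| := by
      intro i
      set D := Metric.diam (S ∩ c ⁻¹' {i}) with hD
      have hD0 : 0 ≤ D := Metric.diam_nonneg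
      have hD1 : D < Real.sqrt 8 := (hcon i).trans_le hdiam
      have hD2 : D ^ 2 < 8 := (Real.lt_sqrt hD0).1 hD1
      refine ⟨Real.sqrt (1 - D ^ 2 / 8), Real.sqrt_pos.2 (by linarith), ?_, ?_⟩
      · rw [Real.sqrt_le_one]; nlinarith [sq_nonneg D]
      · intro x y hx hy hcx hcy
        have h1 : dist (vero x) (vero y) ≤ D :=
          Metric.dist_le_diam_of_mem (hb.subset Set.inter_subset_left)
            ⟨⟨x, hx, rfl⟩, hcx⟩ ⟨⟨y, hy, rfl⟩, hcy⟩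
        have h2 : dist (vero x) (vero y) ^ 2 ≤ D ^ 2 := by gcongr
        rw [dist_vero_sq x y hx hy] at h2
        apply Real.sqrt_le_iff.2
        refine ⟨abs_nonneg _, ?_⟩
        rw [sq_abs]; linarith
    choose δ hδ0 hδ1 hδ2 using hδ
    let U : Fin 10 → Set (EuclideanSpace ℝ (Fin 4)) := fun i =>
      ⋃ x ∈ {x : EuclideanSpace ℝ (Fin 4) | ‖x‖ = 1 ∧ c (vero x) = i}, Metric.ball x (δ i / 3)
    have hmem : ∀ i z, z ∈ U i ↔ ∃ x : EuclideanSpace ℝ (Fin 4),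
        (‖x‖ = 1 ∧ c (vero x) = i) ∧ ‖z - x‖ < δ i / 3 := by
      intro i z
      simp [U, dist_eq_norm]
    obtain ⟨x, hx, hxU⟩ := no_ten_colours
      (fun P hP hP' => Crest.Agent.Lib.BorsukUlam.lyusternik_shnirelman 3 P hP
        (fun i x _ => hP' i x)) U
      (fun i => isOpen_biUnion fun x _ => Metric.isOpen_ball)
      (by
        intro i z hz
        obtain ⟨x, ⟨h1, h2⟩, h3⟩ := (hmem i z).1 hz
        refine (hmem i (-z)).2 ⟨-x, ⟨by simpa using h1, by rw [vero_neg, h2]⟩, ?_⟩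
        have : -z - -x = -(z - x) := by abel
        rw [this, norm_neg]; exact h3)
      (by
        intro i z w hz hw h0
        obtain ⟨x, ⟨h1, h2⟩, h3⟩ := (hmem i z).1 hz
        obtain ⟨y, ⟨h4, h5⟩, h6⟩ := (hmem i w).1 hw
        have h7 := hδ2 i x y h1 h4 h2 h5
        have h8 : ⟪x, y⟫ = -(⟪z - x, y⟫ + ⟪z, w - y⟫) := by
          rw [inner_sub_left, inner_sub_right, h0]; ring
        have h9 : |⟪z - x, y⟫| ≤ ‖z - x‖ := by
          simpa [h4] using abs_real_inner_le_norm (z - x) y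
        have h10 : ‖z‖ ≤ 4 / 3 := by
          have : ‖z‖ ≤ ‖z - x‖ + ‖x‖ := by simpa using norm_add_le (z - x) x
          linarith [hδ1 i]
        have h11 : |⟪z, w - y⟫| ≤ 4 / 3 * (δ i / 3) :=
          (abs_real_inner_le_norm z (w - y)).trans
            (mul_le_mul h10 h6.le (norm_nonneg _) (by norm_num))
        rw [h8, abs_neg] at h7
        have h12 := abs_add_le ⟪z - x, y⟫ ⟪z, w - y⟫
        linarith [hδ0 i])
    exact hxU (c (vero x)) ((hmem _ x).2 ⟨x, ⟨hx, rfl⟩, by simpa using hδ0 _⟩)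

end Crest.Agent.R50
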